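import Vale.Agent.P256.PL.Stmts

/-!
# P256: the explicit data (Mermin pentagram in the hyperplane `z01 + 2 z12 + 2 z23 + z34`).

Edges of `K5` in the order 01,02,03,04,12,13,14,23,24,34. The product of two edges is `sg e f` times
the basis vector number `pos e f` of `Z^31`.
-/

namespace Vale.Agent.P256.PL.D

/-- Position of the product of two edges. -/
def posL : List (List Nat) := [
  [0, 16, 17, 18, 19, 20, 21, 13, 10, 7],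
  [16, 0, 18, 17, 22, 14, 11, 23, 24, 4],
  [17, 18, 0, 16, 15, 25, 8, 26, 5, 27],
  [18, 17, 16, 0, 12, 9, 28, 6, 29, 30],
  [19, 22, 15, 12, 0, 21, 20, 24, 23, 1],
  [20, 14, 25, 9, 21, 0, 19, 27, 2, 26],
  [21, 11, 8, 28, 20, 19, 0, 3, 30, 29],
  [13, 23, 26, 6, 24, 27, 3, 0, 22, 25],
  [10, 24, 5, 29, 23, 2, 30, 22, 0, 28],
  [7, 4, 27, 30, 1, 26, 29, 25, 28, 0]]

/-- Sign of the product of two edges. -/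
def sgL : List (List Int) := [
  [1, 1, 1, 1, 1, 1, 1, 1, 1, 1],
  [1, 1, -1, -1, 1, 1, 1, 1, 1, 1],
  [1, -1, 1, -1, 1, 1, 1, 1, 1, 1],
  [1, -1, -1, 1, 1, 1, 1, 1, 1, 1],
  [1, 1, 1, 1, 1, -1, -1, -1, -1, 1],
  [1, 1, 1, 1, -1, 1, -1, -1, 1, -1],
  [1, 1, 1, 1, -1, -1, 1, 1, -1, -1],
  [1, 1, 1, 1, -1, -1, 1, 1, -1, -1],
  [1, 1, 1, 1, -1, 1, -1, -1, 1, -1],
  [1, 1, 1, 1, 1, -1, -1, -1, -1, 1]]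

/-- The products of the linear forms with `lambda`. -/
def F0L : List (List Int) := [
  [10, 4, 0, 0, 0, 0, 0, 2, 0, 0, 0, 0, 0, 4, 0, 0, 0, 0, 0, 4, 0, 0, 0, 0, -8, -4, 0, 0, 0, 0, 0],
  [0, 0, 0, 0, 1, 0, 0, 0, 0, 0, 0, 0, 0, 0, 0, 0, 1, 0, 0, 0, 0, 0, 2, 2, 0, 0, 0, 0, 0, 0, 0],
  [0, 0, 0, 0, 0, 0, 0, 0, 0, 0, 0, 0, 0, 0, 0, 2, 0, 1, 0, 0, 0, 0, 0, 0, 0, 0, 2, 1, 0, 0, 0],
  [0, 0, 0, 0, 0, 0, 2, 0, 0, 0, 0, 0, 2, 0, 0, 0, 0, 0, 1, 0, 0, 0, 0, 0, 0, 0, 0, 0, 0, 0, 1],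
  [2, 1, 0, 0, 0, 0, 0, 0, 0, 0, 0, 0, 0, 0, 0, 0, 0, 0, 0, 1, 0, 0, 0, 0, -2, 0, 0, 0, 0, 0, 0],
  [0, 0, 0, 0, 0, 0, 0, 0, 0, 0, 0, 0, 0, 0, 0, 0, 0, 0, 0, 0, 1, -2, 0, 0, 0, 0, -1, -2, 0, 0, 0],
  [0, 0, 0, 2, 0, 0, 0, 0, 0, 0, 0, 0, 0, 0, 0, 0, 0, 0, 0, 0, -2, 1, 0, 0, 0, 0, 0, 0, 0, -1, 0],
  [2, 0, 0, 0, 0, 0, 0, 0, 0, 0, 0, 0, 0, 1, 0, 0, 0, 0, 0, 0, 0, 0, 0, 0, -2, -1, 0, 0, 0, 0, 0],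
  [0, 0, 0, 0, 0, 0, 0, 0, 0, 0, 1, 0, 0, 0, 0, 0, 0, 0, 0, 0, 0, 0, -2, -2, 0, 0, 0, 0, -1, 0, 0],
  [1, 2, 0, 0, 0, 0, 0, 1, 0, 0, 0, 0, 0, 0, 0, 0, 0, 0, 0, 0, 0, 0, 0, 0, 0, -2, 0, 0, 0, 0, 0]]

/-- The orthogonal basis of the complement. -/
def uL : List (List Int) := [
  [0, 0, 1, 0, 0, 0, 0, 0, 0, 0, 0, 0, 0, 0, 0, 0, 0, 0, 0, 0, 0, 0, 0, 0, 0, 0, 0, 0, 0, 0, 0],
  [0, 0, 0, 0, 0, 1, 0, 0, 0, 0, 0, 0, 0, 0, 0, 0, 0, 0, 0, 0, 0, 0, 0, 0, 0, 0, 0, 0, 0, 0, 0],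
  [0, 0, 0, 0, 0, 0, 0, 0, 1, 0, 0, 0, 0, 0, 0, 0, 0, 0, 0, 0, 0, 0, 0, 0, 0, 0, 0, 0, 0, 0, 0],
  [0, 0, 0, 0, 0, 0, 0, 0, 0, 1, 0, 0, 0, 0, 0, 0, 0, 0, 0, 0, 0, 0, 0, 0, 0, 0, 0, 0, 0, 0, 0],
  [0, 0, 0, 0, 0, 0, 0, 0, 0, 0, 0, 1, 0, 0, 0, 0, 0, 0, 0, 0, 0, 0, 0, 0, 0, 0, 0, 0, 0, 0, 0],
  [0, 0, 0, 0, 0, 0, 0, 0, 0, 0, 0, 0, 0, 0, 1, 0, 0, 0, 0, 0, 0, 0, 0, 0, 0, 0, 0, 0, 0, 0, 0],
  [0, 0, 0, 1, 0, 0, 0, 0, 0, 0, 0, 0, 0, 0, 0, 0, 0, 0, 0, 0, 0, 0, 0, 0, 0, 0, 0, 0, 0, 2, 0],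
  [0, 0, 0, 0, 0, 0, 1, 0, 0, 0, 0, 0, 0, 0, 0, 0, 0, 0, 0, 0, 0, 0, 0, 0, 0, 0, 0, 0, 0, 0, -2],
  [0, 0, 0, 0, 0, 0, 0, 0, 0, 0, 1, 0, 0, 0, 0, 0, 0, 0, 0, 0, 0, 0, 0, 0, 0, 0, 0, 0, 1, 0, 0],
  [0, 0, 0, 0, 0, 0, -4, 0, 0, 0, 0, 0, 5, 0, 0, 0, 0, 0, 0, 0, 0, 0, 0, 0, 0, 0, 0, 0, 0, 0, -2],
  [0, 0, 0, 0, 0, 0, -2, 0, 0, 0, 0, 0, -2, 0, 0, 0, 0, 0, 9, 0, 0, 0, 0, 0, 0, 0, 0, 0, 0, 0, -1],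
  [0, 0, 0, 0, 0, 0, 0, 0, 0, 0, 0, 0, 0, 0, 0, 0, 0, 0, 0, 0, 0, 0, 1, -1, 0, 0, 0, 0, 0, 0, 0],
  [0, 0, 0, 0, 4, 0, 0, 0, 0, 0, -2, 0, 0, 0, 0, 0, 0, 0, 0, 0, 0, 0, -1, -1, 0, 0, 0, 0, 2, 0, 0],
  [0, 0, 0, 0, 0, 0, 0, 0, 0, 0, 0, 0, 0, 0, 0, 3, 0, 0, 0, 0, 0, 0, 0, 0, 0, 0, -4, 2, 0, 0, 0],
  [0, 0, 0, 0, -5, 0, 0, 0, 0, 0, -4, 0, 0, 0, 0, 0, 13, 0, 0, 0, 0, 0, -2, -2, 0, 0, 0, 0, 4, 0, 0],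
  [0, 0, 0, 0, 0, 0, 0, 0, 0, 0, 0, 0, 0, 0, 0, -10, 0, 29, 0, 0, 0, 0, 0, 0, 0, 0, -6, 3, 0, 0, 0],
  [4, 0, 0, 0, 0, 0, 0, 0, 0, 0, 0, 0, 0, 0, 0, 0, 0, 0, 0, -2, 0, 0, 0, 0, 3, 2, 0, 0, 0, 0, 0],
  [-16, 33, 0, 0, 0, 0, 0, 0, 0, 0, 0, 0, 0, 33, 0, 0, 0, 0, 0, -25, 0, 0, 0, 0, -12, 25, 0, 0, 0, 0, 0],
  [-1, -7, 0, 0, 0, 0, 0, 29, 0, 0, 0, 0, 0, -7, 0, 0, 0, 0, 0, -7, 0, 0, 0, 0, -8, 7, 0, 0, 0, 0, 0],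
  [0, 0, 0, 68, 0, 0, 0, 0, 0, 0, 0, 0, 0, 0, 0, -20, 0, -10, 0, 0, 85, 0, 0, 0, 0, 0, 5, 40, 0, -34, 0],
  [0, 0, 0, -2, 0, 0, 0, 0, 0, 0, 0, 0, 0, 0, 0, 32, 0, 16, 0, 0, 42, 89, 0, 0, 0, 0, -8, -64, 0, 1, 0]]

/-- The norms of the basis vectors. -/
def nrmL : List Nat := [1, 1, 1, 1, 1, 1, 5, 5, 2, 45, 90, 2, 26, 29, 234, 986, 33, 3828, 1102, 15130, 15130]

/-- `232560` times the inverse of the Gram matrix of `F0L`. -/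
def PzL : List (List Int) := [
  [28305, 0, 0, 0, -62730, 0, 0, -62730, 0, -29070],
  [0, 64600, 0, 0, 0, 0, 0, 0, 51680, 0],
  [0, 0, 28728, 0, 0, 13680, 5472, 0, 0, 0],
  [0, 0, 0, 23256, 0, 0, 0, 0, 0, 0],
  [-62730, 0, 0, 0, 205020, 0, 0, 88740, 0, 58140],
  [0, 0, 13680, 0, 0, 34200, 13680, 0, 0, 0],
  [0, 0, 5472, 0, 0, 13680, 28728, 0, 0, 0],
  [-62730, 0, 0, 0, 88740, 0, 0, 205020, 0, 58140],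
  [0, 51680, 0, 0, 0, 0, 0, 0, 64600, 0],
  [-29070, 0, 0, 0, 58140, 0, 0, 58140, 0, 58140]]

/-- `PzL` times `F0L`. -/
def FPL : List (List Int) := [
  [3060, -7650, 0, 0, 0, 0, 0, 27540, 0, 0, 0, 0, 0, 50490, 0, 0, 0, 0, 0, 50490, 0, 0, 0, 0, 24480, 7650, 0, 0, 0, 0, 0],
  [0, 0, 0, 0, 64600, 0, 0, 0, 0, 0, 51680, 0, 0, 0, 0, 0, 64600, 0, 0, 0, 0, 0, 25840, 25840, 0, 0, 0, 0, -51680, 0, 0],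
  [0, 0, 0, 10944, 0, 0, 0, 0, 0, 0, 0, 0, 0, 0, 0, 57456, 0, 28728, 0, 0, 2736, -21888, 0, 0, 0, 0, 43776, 1368, 0, -5472, 0],
  [0, 0, 0, 0, 0, 0, 46512, 0, 0, 0, 0, 0, 46512, 0, 0, 0, 0, 0, 23256, 0, 0, 0, 0, 0, 0, 0, 0, 0, 0, 0, 23256],
  [18360, 70380, 0, 0, 0, 0, 0, -67320, 0, 0, 0, 0, 0, -162180, 0, 0, 0, 0, 0, -45900, 0, 0, 0, 0, -85680, 45900, 0, 0, 0, 0, 0],
  [0, 0, 0, 27360, 0, 0, 0, 0, 0, 0, 0, 0, 0, 0, 0, 27360, 0, 13680, 0, 0, 6840, -54720, 0, 0, 0, 0, -6840, -54720, 0, -13680, 0],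
  [0, 0, 0, 57456, 0, 0, 0, 0, 0, 0, 0, 0, 0, 0, 0, 10944, 0, 5472, 0, 0, -43776, 1368, 0, 0, 0, 0, -2736, -21888, 0, -28728, 0],
  [18360, -45900, 0, 0, 0, 0, 0, -67320, 0, 0, 0, 0, 0, -45900, 0, 0, 0, 0, 0, -162180, 0, 0, 0, 0, -85680, -70380, 0, 0, 0, 0, 0],
  [0, 0, 0, 0, 51680, 0, 0, 0, 0, 0, 64600, 0, 0, 0, 0, 0, 51680, 0, 0, 0, 0, 0, -25840, -25840, 0, 0, 0, 0, -64600, 0, 0],
  [0, 58140, 0, 0, 0, 0, 0, 0, 0, 0, 0, 0, 0, -58140, 0, 0, 0, 0, 0, -58140, 0, 0, 0, 0, 0, -58140, 0, 0, 0, 0, 0]]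

/-- Matrix entry of a list of lists. -/
def lk (l : List (List Int)) (i j : Nat) : Int := (l.getD i []).getD j 0

/-- Position of the product. -/
def pos (e f : Nat) : Nat := (posL.getD e []).getD f 0

/-- The pairing of a vector with the product of two edges. -/
def evl (v : List Int) (e f : Nat) : Int := lk sgL e f * v.getD (pos e f) 0

/-- Sum of `f 0, ..., f (n-1)`. -/
def sumN (n : Nat) (f : Nat → Int) : Int := Nat.rec 0 (fun i s => s + f i) n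

theorem sumN_eq (n : Nat) (f : Nat → Int) : sumN n f = ∑ i : Fin n, f i := by
  induction n with
  | zero => simp [sumN]
  | succ n ih =>
    rw [Fin.sum_univ_castSucc]
    change sumN n f + f n = _
    rw [ih]
    rfl

/-- The Gram matrix of the forms `lambda z`. -/
def yz (a b : Nat) : Int := sumN 31 fun x => lk F0L a x * lk F0L b x

/-- The integer tensor `232 τ`. -/
def tz : Nat → Nat → Nat → Int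
  | a, 0, c => yz a c
  | a, b + 1, 0 => yz a (b + 1)
  | a, b + 1, c + 1 => evl (F0L.getD a []) (b + 1) (c + 1)

/-- The integer matrices `U_p` (indices `0..8`). -/
def Uz (p i j : Nat) : Int := evl (uL.getD p []) (i + 1) (j + 1)

/-- The quartic form in the edges `1..9` (indices `0..8`). -/
def Zz (i j l m : Nat) : Int :=
  if pos (i + 1) (j + 1) = pos (l + 1) (m + 1) then
    lk sgL (i + 1) (j + 1) * lk sgL (l + 1) (m + 1) else 0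

theorem tz_symm : ∀ a b c : Fin 10, tz a b c = tz b a c ∧ tz a b c = tz a c b := by
  decide +kernel

theorem yPz : ∀ a c : Fin 10, (sumN 10 fun b => yz a b * lk PzL b c) =
    if a = c then 232560 else 0 := by
  decide +kernel

theorem FPz : ∀ (a : Fin 10) (x : Fin 31), (sumN 10 fun b => lk PzL a b * lk F0L b x) =
    lk FPL a x := by
  decide +kernel

/-- Completeness. -/
theorem compl : ∀ x x' : Fin 31, (sumN 10 fun a => lk F0L a x * lk FPL a x') * 369083 +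
    (sumN 21 fun p => (85833942480 / (nrmL.getD p 1 : Int)) * (lk uL p x * lk uL p x')) =
    if x = x' then 85833942480 else 0 := by
  decide +kernel

theorem Zz_alt : ∀ i j l m : Fin 9, Zz i l j m = Zz i m j l := by
  decide +kernel

end Vale.Agent.P256.PL.D
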